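import Vale.Agent.P107.H15.Main
import Vale.Agent.P107.H15.Classical
import Vale.Agent.P107.H276.Coulomb

/-!
Global classical solutions of the three-dimensional one-species relativistic Vlasov-Maxwell system
for smooth data without any condition at spatial infinity, and finite speed of propagation.
-/

open MeasureTheory Set
open scoped ContDiff

namespace Vale.Agent.P107.RVM

theorem _root_.Vale.Agent.Results.P107.NoConditionAtInfinity.result :
    -- every smooth admissible datum generates a classical solution on `[0,∞)`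
    (∀ (f₀ : V3 → V3 → ℝ) (E₀ B₀ : V3 → V3), IsAdmissible f₀ E₀ B₀ →
      ∃ (f : ℝ → V3 → V3 → ℝ) (E B : ℝ → V3 → V3),
        (∀ T, 0 < T → IsClassicalSolution T f E B) ∧
        (∀ x v, f 0 x v = f₀ x v) ∧ (∀ x, E 0 x = E₀ x) ∧ (∀ x, B 0 x = B₀ x)) ∧
    -- global existence and uniqueness without any condition at infinity; the solution is classical
    -- as soon as `f₀` has compact support and `E₀, B₀` are square integrable
    (∀ (f₀ : V3 → V3 → ℝ) (E₀ B₀ : V3 → V3), IsLocalDatum f₀ E₀ B₀ →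
      ∃ (f : ℝ → V3 → V3 → ℝ) (E B : ℝ → V3 → V3),
        (∀ T, 0 < T → IsLocalSolution T f E B) ∧
        (∀ x v, f 0 x v = f₀ x v) ∧ (∀ x, E 0 x = E₀ x) ∧ (∀ x, B 0 x = B₀ x) ∧
        (∀ (T : ℝ) (g : ℝ → V3 → V3 → ℝ) (E' B' : ℝ → V3 → V3), IsLocalSolution T g E' B' →
          (∀ x v, g 0 x v = f₀ x v) → (∀ x, E' 0 x = E₀ x) → (∀ x, B' 0 x = B₀ x) →
          ∀ t ∈ Ico 0 T, g t = f t ∧ E' t = E t ∧ B' t = B t) ∧
        (HasCompactSupport (fun z : V3 × V3 => f₀ z.1 z.2) → MemLp E₀ 2 volume →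
          MemLp B₀ 2 volume → ∀ T, 0 < T → IsClassicalSolution T f E B)) ∧
    -- every smooth density with locally bounded momentum support is part of a datum
    (∀ f₀ : V3 → V3 → ℝ, ContDiff ℝ ∞ (fun z : V3 × V3 => f₀ z.1 z.2) →
      (∀ R : ℝ, ∃ P : ℝ, ∀ x v, len x ≤ R → f₀ x v ≠ 0 → len v ≤ P) → (∀ x v, 0 ≤ f₀ x v) →
      ∃ E₀ : V3 → V3, IsLocalDatum f₀ E₀ 0) ∧
    -- finite speed of propagation
    (∀ (T : ℝ) (f g : ℝ → V3 → V3 → ℝ) (E B E' B' : ℝ → V3 → V3) (x₀ : V3) (R : ℝ),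
      IsLocalSolution T f E B → IsLocalSolution T g E' B' →
      AgreeAt {x | len (x - x₀) ≤ R} 0 f g E B E' B' →
      ∀ t ∈ Ico 0 T, AgreeAt {x | len (x - x₀) ≤ R - t} t f g E B E' B') ∧
    -- classical solutions belong to the class
    (∀ (T : ℝ) (f : ℝ → V3 → V3 → ℝ) (E B : ℝ → V3 → V3),
      IsClassicalSolution T f E B → IsLocalSolution T f E B) := by
  refine ⟨globalExistence, fun f₀ E₀ B₀ h => ?_, fun f₀ hf hs hn => ?_, Cn.finiteSpeed,
    fun T f E B h => h.isLocalSolution⟩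
  · have ht : Truncation := fun f₀ E₀ B₀ h R =>
      H586.exists_truncation_core h.f_smooth h.f_supp h.f_nonneg h.E_smooth h.B_smooth h.gauss
        h.gauss_mag R
    obtain ⟨f, E, B, hsol, hf, hE, hB⟩ := glue Cn.finiteSpeed ht globalExistence h
    have hf0 : f 0 = f₀ := funext fun x => funext fun v => hf x v
    have hE0 : E 0 = E₀ := funext hE
    have hB0 : B 0 = B₀ := funext hB
    refine ⟨f, E, B, hsol, hf, hE, hB, fun T g E' B' h' hf' hE' hB' t ht' => ?_,
      fun hc h1 h2 T hT => ?_⟩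
    · refine local_unique h' (hsol T (ht'.1.trans_lt ht'.2)) (fun x v => ?_) (fun x => ?_)
        (fun x => ?_) ht'
      · rw [hf', hf]
      · rw [hE', hE]
      · rw [hB', hB]
    · exact Cn.isClassical_of_local (hsol T hT) (by rw [hf0]; exact hc) (by rw [hE0]; exact h1)
        (by rw [hB0]; exact h2)
  · obtain ⟨E₀, h1, h2⟩ := exists_coulomb f₀ hf hs
    refine ⟨E₀, hf, hs, hn, h1, fun i => contDiff_const, h2, fun x => ?_⟩
    simp [div, pd]

end Vale.Agent.P107.RVM
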