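import Vale.Agent.P107.H706.WeakBridge
import Vale.Agent.P107.H429.ClassicalIsWeak

/-!
The large-data Cauchy problem for the three-dimensional one-species relativistic Vlasov-Maxwell
system is globally well posed in both time directions: existence, uniqueness, conservation laws and
continuous dependence on the data in the energy space; and the classical solution is the only
finite-energy weak solution, and stable among the finite-energy weak solutions.
-/

open MeasureTheory Set
open scoped ENNReal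

namespace Vale.Agent.P107.RVM

theorem _root_.Vale.Agent.Results.P107.TwoSidedWellPosed.result :
    -- every smooth admissible datum generates a classical solution on `[0,∞)`
    (∀ (f₀ : V3 → V3 → ℝ) (E₀ B₀ : V3 → V3), IsAdmissible f₀ E₀ B₀ →
      ∃ (f : ℝ → V3 → V3 → ℝ) (E B : ℝ → V3 → V3),
        (∀ T, 0 < T → IsClassicalSolution T f E B) ∧
        (∀ x v, f 0 x v = f₀ x v) ∧ (∀ x, E 0 x = E₀ x) ∧ (∀ x, B 0 x = B₀ x)) ∧
    -- it generates exactly one classical solution on the whole time axis; the fields are bounded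
    -- on bounded time intervals, and every classical solution on `[0,T)` with this datum is a
    -- restriction of it
    (∀ (f₀ : V3 → V3 → ℝ) (E₀ B₀ : V3 → V3), IsAdmissible f₀ E₀ B₀ →
      ∃ (f : ℝ → V3 → V3 → ℝ) (E B : ℝ → V3 → V3), IsEternalSolution f E B ∧
        f 0 = f₀ ∧ E 0 = E₀ ∧ B 0 = B₀ ∧
        (∀ (g : ℝ → V3 → V3 → ℝ) (E' B' : ℝ → V3 → V3), IsEternalSolution g E' B' →
          g 0 = f₀ → E' 0 = E₀ → B' 0 = B₀ → g = f ∧ E' = E ∧ B' = B) ∧
        (∀ T : ℝ, ∃ C : ℝ, ∀ t x, |t| ≤ T → len (E t x) ≤ C ∧ len (B t x) ≤ C) ∧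
        (∀ (T : ℝ) (g : ℝ → V3 → V3 → ℝ) (E' B' : ℝ → V3 → V3), IsClassicalSolution T g E' B' →
          g 0 = f₀ → E' 0 = E₀ → B' 0 = B₀ →
          ∀ t ∈ Ico 0 T, g t = f t ∧ E' t = E t ∧ B' t = B t)) ∧
    -- conservation of the total energy and of all the integrals `∬ Φ(f) dx dv`
    (∀ (f : ℝ → V3 → V3 → ℝ) (E B : ℝ → V3 → V3), IsEternalSolution f E B → ∀ t : ℝ,
      totalEnergy f E B t = totalEnergy f E B 0 ∧
      ∀ Φ : ℝ → ℝ≥0∞, Measurable Φ → Φ 0 = 0 →
        ∫⁻ z : V3 × V3, Φ (f t z.1 z.2) = ∫⁻ z : V3 × V3, Φ (f 0 z.1 z.2)) ∧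
    -- continuous dependence on the data in the energy space, uniformly on bounded time intervals
    (∀ (g : ℝ → V3 → V3 → ℝ) (E' B' : ℝ → V3 → V3), IsEternalSolution g E' B' →
      IsAdmissible (g 0) (E' 0) (B' 0) → ∀ T : ℝ, ∃ C : ℝ,
        ∀ (f : ℝ → V3 → V3 → ℝ) (E B : ℝ → V3 → V3), IsEternalSolution f E B →
          ∀ t, |t| ≤ T → gap f g E B E' B' t
            ≤ C * (gap f g E B E' B' 0 + Real.sqrt (gap f g E B E' B' 0))) ∧
    -- a classical solution with admissible initial values is, for positive times, the only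
    -- finite-energy weak solution with these initial values, and it is stable in the class of
    -- all finite-energy weak solutions
    (∀ (f : ℝ → V3 → V3 → ℝ) (E B : ℝ → V3 → V3), IsEternalSolution f E B →
      IsAdmissible (f 0) (E 0) (B 0) → IsOnlyWeak f E B ∧ IsStableAmongWeak f E B) := by
  refine ⟨globalExistence, fun f₀ E₀ B₀ h => ?_, fun f E B h t => ?_,
    fun g E' B' h' h0 T => H706.stability_eternal h' h0 T,
    fun f E B h h0 => ⟨isOnlyWeak h h0 (P107.H429.isWeakSolution_of_eternal h),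
      isStableAmongWeak h h0⟩⟩
  · obtain ⟨f, E, B, hsol, hf, hE, hB⟩ := H706.exists_eternal h
    have h0 : IsAdmissible (f 0) (E 0) (B 0) := by rwa [hf, hE, hB]
    refine ⟨f, E, B, hsol, hf, hE, hB, fun g E' B' h' hg hE' hB' => ?_,
      H706.bounded_eternal hsol h0, fun T g E' B' h' hg hE' hB' => ?_⟩
    · exact H706.eternal_unique hsol h' (hg.trans hf.symm) (hE'.trans hE.symm)
        (hB'.trans hB.symm)
    · exact H706.eternal_eq_classical hsol h' (hg.trans hf.symm) (hE'.trans hE.symm)
        (hB'.trans hB.symm)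
  · exact ⟨H706.totalEnergy_eq h t 0, fun Φ hΦ h0 => H706.casimir_eq h hΦ h0 t⟩

end Vale.Agent.P107.RVM
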